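import Mathlib.MeasureTheory.Measure.Haar.NormedSpace
import Mathlib.MeasureTheory.Integral.Average
import Mathlib.Topology.Semicontinuity.Basic
import Mathlib.Analysis.Normed.Module.FiniteDimension

/-!
# P284, theorem TAN (helper5): a usc function with the sub-mean inequality on balls whose differences vanish
almost everywhere is constant on the ball
-/

open scoped Topology ENNReal
open Filter Set Metric MeasureTheory

set_option linter.unusedSectionVars false

noncomputable section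

namespace Vale.Agent.P284.H5.TAN

variable {E : Type*} [NormedAddCommGroup E] [NormedSpace ℝ E] [FiniteDimensional ℝ E]
  [MeasurableSpace E] [BorelSpace E]

/-- differences vanish a.e. ⇒ a.e. constant -/
theorem ae_const (μ : Measure E) [μ.IsAddHaarMeasure] {u : E → ℝ} {x₀ : E} {R : ℝ} (hR : 0 < R)
    (hid : ∀ᵐ x ∂μ, x ∈ ball x₀ R → ∀ᵐ h ∂μ, x + h ∈ ball x₀ R → u (x + h) = u x) :
    ∃ c : ℝ, ∀ᵐ x ∂μ, x ∈ ball x₀ R → u x = c := by
  have h1 : μ.restrict (ball x₀ R) ≠ 0 := by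
    rw [Ne, Measure.restrict_eq_zero]
    exact (measure_ball_pos μ x₀ hR).ne'
  have : (ae (μ.restrict (ball x₀ R))).NeBot := ae_neBot.2 h1
  have h2 : ∀ᵐ x ∂(μ.restrict (ball x₀ R)), x ∈ ball x₀ R ∧
      ∀ᵐ h ∂μ, x + h ∈ ball x₀ R → u (x + h) = u x := by
    filter_upwards [ae_restrict_mem measurableSet_ball, ae_restrict_of_ae hid] with x hx1 hx2
    exact ⟨hx1, hx2 hx1⟩
  obtain ⟨x, hx1, hx2⟩ := h2.exists
  refine ⟨u x, ?_⟩
  have h3 := (measurePreserving_add_left μ (-x)).quasiMeasurePreserving.ae hx2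
  filter_upwards [h3] with y hy1 hy2
  have h4 : x + (-x + y) = y := by abel
  rw [h4] at hy1
  exact hy1 hy2

theorem eq_of_ae (μ : Measure E) [μ.IsAddHaarMeasure] {u : E → ℝ} {x₀ : E} {R c : ℝ}
    (hc : ∀ᵐ x ∂μ, x ∈ ball x₀ R → u x = c)
    (husc : ∀ x ∈ ball x₀ R, UpperSemicontinuousAt u x)
    (hsub : ∀ y ∈ ball x₀ R, ∃ δ > 0, ∀ r ∈ Ioo (0 : ℝ) δ, u y ≤ ⨍ z in ball y r, u z ∂μ) :
    ∀ x ∈ ball x₀ R, u x = c := by
  intro x hx
  have hball : ∀ {s : ℝ}, 0 < s → ball x s ⊆ ball x₀ R →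
      ∀ᵐ z ∂(μ.restrict (ball x s)), u z = c := by
    intro s hs hsub'
    filter_upwards [ae_restrict_mem measurableSet_ball, ae_restrict_of_ae hc] with z hz1 hz2
    exact hz2 (hsub' hz1)
  obtain ⟨s, hs, hsR⟩ := Metric.isOpen_iff.1 isOpen_ball x hx
  refine le_antisymm ?_ ?_
  · obtain ⟨δ, hδ, h1⟩ := hsub x hx
    set r := min δ s / 2 with hr
    have hm : 0 < min δ s := lt_min hδ hs
    have hr0 : 0 < r := by positivity
    have hrδ : r < δ := lt_of_lt_of_le (half_lt_self hm) (min_le_left _ _)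
    have hrs : r ≤ s := (half_lt_self hm).le.trans (min_le_right _ _)
    refine (h1 r ⟨hr0, hrδ⟩).trans_eq ?_
    have h2 := hball hr0 ((ball_subset_ball hrs).trans hsR)
    rw [average_congr h2]
    have h3 : μ (ball x r) ≠ 0 := (measure_ball_pos μ x hr0).ne'
    have h4 : μ (ball x r) ≠ ⊤ := measure_ball_lt_top.ne
    exact setAverage_const h3 h4 c
  · by_contra hlt
    push Not at hlt
    obtain ⟨δ, hδ, h2⟩ := Metric.eventually_nhds_iff_ball.1 (husc x hx c hlt)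
    have ht0 : 0 < min δ s := lt_min hδ hs
    have h3 := hball ht0 ((ball_subset_ball (min_le_right _ _)).trans hsR)
    have h4 : μ.restrict (ball x (min δ s)) ≠ 0 := by
      rw [Ne, Measure.restrict_eq_zero]
      exact (measure_ball_pos μ x ht0).ne'
    have : (ae (μ.restrict (ball x (min δ s)))).NeBot := ae_neBot.2 h4
    obtain ⟨z, hz1, hz2⟩ := (h3.and (ae_restrict_mem measurableSet_ball)).exists
    have h5 : u z < c := h2 z (ball_subset_ball (min_le_left _ _) hz2)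
    rw [hz1] at h5
    exact lt_irrefl _ h5

/-- **R6** -/
theorem r6 (μ : Measure E) [μ.IsAddHaarMeasure] (u : E → ℝ) (x₀ : E) (R : ℝ)
    (hid : ∀ᵐ x ∂μ, x ∈ ball x₀ R → ∀ᵐ h ∂μ, x + h ∈ ball x₀ R → u (x + h) = u x)
    (husc : ∀ x ∈ ball x₀ R, UpperSemicontinuousAt u x)
    (hsub : ∀ y ∈ ball x₀ R, ∃ δ > 0, ∀ r ∈ Ioo (0 : ℝ) δ, u y ≤ ⨍ z in ball y r, u z ∂μ) :
    ∃ c, ∀ x ∈ ball x₀ R, u x = c := by
  rcases le_or_gt R 0 with hR | hR
  · exact ⟨0, fun x hx => by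
      rw [ball_eq_empty.2 hR] at hx
      exact absurd hx (notMem_empty x)⟩
  · obtain ⟨c, hc⟩ := ae_const μ hR hid
    exact ⟨c, eq_of_ae μ hc husc hsub⟩

end Vale.Agent.P284.H5.TAN
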