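import Mathlib

/-!
# P284, theorem TAN (helper5): convex combinations of tails with `L¹`-converging gradients
-/

open scoped Topology ENNReal RealInnerProductSpace
open Filter Set Metric MeasureTheory

set_option linter.unusedSectionVars false

noncomputable section

namespace Vale.Agent.P284.H5.TAN

/-- a bounded sequence has convex combinations of its tails which converge in norm -/
theorem mazur {V H : Type*} [AddCommGroup V] [Module ℝ V] [NormedAddCommGroup H]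
    [InnerProductSpace ℝ H] [CompleteSpace H] (D : V →ₗ[ℝ] H) (f : ℕ → V) (K : ℝ)
    (hK : ∀ k, ‖D (f k)‖ ≤ K) :
    ∃ (g : ℕ → V) (G : H), (∀ k, g k ∈ convexHull ℝ (f '' Ici k)) ∧
      Tendsto (fun k => D (g k)) atTop (𝓝 G) := by
  set T : ℕ → Set V := fun k => convexHull ℝ (f '' Ici k) with hT
  have hTm : ∀ {k j}, k ≤ j → T j ⊆ T k := fun {k j} h =>
    convexHull_mono (image_mono (Ici_subset_Ici.2 h))
  have hfT : ∀ k, f k ∈ T k := fun k => subset_convexHull ℝ _ ⟨k, mem_Ici.2 le_rfl, rfl⟩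
  set d : ℕ → ℝ := fun k => sInf ((fun v => ‖D v‖) '' T k) with hd
  have hbb : ∀ k, BddBelow ((fun v => ‖D v‖) '' T k) := fun k =>
    ⟨0, by rintro _ ⟨v, _, rfl⟩; exact norm_nonneg _⟩
  have hne : ∀ k, ((fun v => ‖D v‖) '' T k).Nonempty := fun k => ⟨_, f k, hfT k, rfl⟩
  have hdle : ∀ k, ∀ v ∈ T k, d k ≤ ‖D v‖ := fun k v hv => csInf_le (hbb k) ⟨v, hv, rfl⟩
  have hd0 : ∀ k, 0 ≤ d k := fun k => le_csInf (hne k) (by
    rintro _ ⟨v, _, rfl⟩; exact norm_nonneg _)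
  have hdm : Monotone d := fun k j h => csInf_le_csInf (hbb k) (hne j) (image_mono (hTm h))
  have hdK : ∀ k, d k ≤ K := fun k => (hdle k _ (hfT k)).trans (hK k)
  have hbd : BddAbove (range d) := ⟨K, by rintro _ ⟨k, rfl⟩; exact hdK k⟩
  set ℓ : ℝ := ⨆ k, d k
  have hℓ : Tendsto d atTop (𝓝 ℓ) := tendsto_atTop_ciSup hdm hbd
  have hex : ∀ k : ℕ, ∃ v ∈ T k, ‖D v‖ < d k + 1 / ((k : ℝ) + 1) := by
    intro k
    have h1 : sInf ((fun v => ‖D v‖) '' T k) < d k + 1 / ((k : ℝ) + 1) := by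
      have : 0 < 1 / ((k : ℝ) + 1) := by positivity
      show d k < _
      linarith
    obtain ⟨_, ⟨v, hv, rfl⟩, h2⟩ := exists_lt_of_csInf_lt (hne k) h1
    exact ⟨v, hv, h2⟩
  choose g hg hgd using hex
  have ha : Tendsto (fun k : ℕ => (d k + 1 / ((k : ℝ) + 1)) ^ 2) atTop (𝓝 (ℓ ^ 2)) := by
    have := (hℓ.add tendsto_one_div_add_atTop_nhds_zero_nat).pow 2
    simpa using this
  have hb : Tendsto (fun k : ℕ => (d k) ^ 2) atTop (𝓝 (ℓ ^ 2)) := hℓ.pow 2
  have hc : CauchySeq fun k => D (g k) := by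
    rw [Metric.cauchySeq_iff']
    intro ε hε
    have hε2 : 0 < ε ^ 2 / 16 := by positivity
    have h1 := (Metric.tendsto_nhds.1 ha) _ hε2
    have h2 := (Metric.tendsto_nhds.1 hb) _ hε2
    obtain ⟨N, hN⟩ := (h1.and h2).exists_forall_of_atTop
    refine ⟨N, fun j hj => ?_⟩
    have hj1 := (hN j hj).1
    have hN1 := (hN N le_rfl).1
    have hN2 := (hN N le_rfl).2
    rw [Real.dist_eq, abs_lt] at hj1 hN1 hN2
    have hmid : (1 / 2 : ℝ) • g j + (1 / 2 : ℝ) • g N ∈ T N :=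
      (convex_convexHull ℝ _) (hTm hj (hg j)) (hg N) (by norm_num) (by norm_num) (by norm_num)
    have h3 := hdle N _ hmid
    have h4 : D ((1 / 2 : ℝ) • g j + (1 / 2 : ℝ) • g N) = (1 / 2 : ℝ) • (D (g j) + D (g N)) := by
      rw [map_add, map_smul, map_smul, smul_add]
    rw [h4, norm_smul] at h3
    have h5 : ‖(1 / 2 : ℝ)‖ = 1 / 2 := by norm_num
    rw [h5] at h3
    have h6 := parallelogram_law_with_norm ℝ (D (g j)) (D (g N))
    have h7 := hgd j
    have h8 := hgd N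
    have h9 := norm_nonneg (D (g j))
    have h10 := norm_nonneg (D (g N))
    have h11 : ‖D (g j)‖ ^ 2 ≤ (d j + 1 / ((j : ℝ) + 1)) ^ 2 := by
      exact pow_le_pow_left₀ h9 h7.le 2
    have h12 : ‖D (g N)‖ ^ 2 ≤ (d N + 1 / ((N : ℝ) + 1)) ^ 2 := pow_le_pow_left₀ h10 h8.le 2
    have h13 : (d N) ^ 2 ≤ (1 / 2 * ‖D (g j) + D (g N)‖) ^ 2 := pow_le_pow_left₀ (hd0 N) h3 2
    rw [dist_eq_norm]
    have h14 : ‖D (g j) - D (g N)‖ ^ 2 < ε ^ 2 := by nlinarith
    exact lt_of_pow_lt_pow_left₀ 2 hε.le h14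
  obtain ⟨G, hG⟩ := cauchySeq_tendsto_of_complete hc
  exact ⟨g, G, hg, hG⟩

section Gen

variable {E : Type*} [NormedAddCommGroup E] [NormedSpace ℝ E] [FiniteDimensional ℝ E]
  [MeasurableSpace E] [BorelSpace E]

theorem r2 (μ : Measure E) [IsFiniteMeasureOnCompacts μ]
    (u : E → ℝ) (S : Set E) (hS : Bornology.IsBounded S) (f : ℕ → E → ℝ) (K : ℝ)
    (hf : ∀ k, ContDiff ℝ 1 (f k)) (hlim : ∀ z ∈ S, Tendsto (fun k => f k z) atTop (𝓝 (u z)))
    (hK : ∀ k, ∫ z in S, ‖fderiv ℝ (f k) z‖ ^ 2 ∂μ ≤ K) :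
    ∃ (g : ℕ → E → ℝ) (G : E → E →L[ℝ] ℝ), (∀ k, ContDiff ℝ 1 (g k)) ∧
      (∀ z ∈ S, Tendsto (fun k => g k z) atTop (𝓝 (u z))) ∧ StronglyMeasurable G ∧
      IntegrableOn G S μ ∧
      Tendsto (fun k => ∫⁻ z in S, ‖fderiv ℝ (g k) z - G z‖ₑ ∂μ) atTop (𝓝 0) := by
  have hpr : ProperSpace E := FiniteDimensional.proper_real E
  let F := EuclideanSpace ℝ (Fin (Module.finrank ℝ (E →L[ℝ] ℝ)))
  let L : (E →L[ℝ] ℝ) ≃L[ℝ] F := ContinuousLinearEquiv.ofFinrankEq (by simp [F])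
  set ν := μ.restrict S with hν
  have hcpt : IsCompact (closure S) := hS.isCompact_closure
  have hfin : IsFiniteMeasure ν := ⟨by
    rw [hν, Measure.restrict_apply_univ]
    exact (measure_mono subset_closure).trans_lt hcpt.measure_lt_top⟩
  have hfin2 : IsFiniteMeasure (μ.restrict (closure S)) := ⟨by
    rw [Measure.restrict_apply_univ]
    exact hcpt.measure_lt_top⟩
  let V : Submodule ℝ (E → ℝ) :=
    { carrier := {g : E → ℝ | ContDiff ℝ 1 g}
      add_mem' := by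
        intro a b ha hb
        have ha' : ContDiff ℝ 1 a := ha
        have hb' : ContDiff ℝ 1 b := hb
        show ContDiff ℝ 1 (a + b)
        exact ha'.add hb'
      zero_mem' := by
        show ContDiff ℝ 1 (fun _ : E => (0 : ℝ))
        exact contDiff_const
      smul_mem' := by
        intro c g hg
        have hg' : ContDiff ℝ 1 g := hg
        show ContDiff ℝ 1 (c • g)
        exact hg'.const_smul c }
  have hV : ∀ g : V, ContDiff ℝ 1 (g : E → ℝ) := fun g => g.2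
  have hcont : ∀ g : V, Continuous (fun z => L (fderiv ℝ (g : E → ℝ) z)) := fun g =>
    L.continuous.comp ((hV g).continuous_fderiv one_ne_zero)
  have hm : ∀ g : V, MemLp (fun z => L (fderiv ℝ (g : E → ℝ) z)) 2 ν := by
    intro g
    obtain ⟨C, hC⟩ := hcpt.exists_bound_of_continuousOn (hcont g).continuousOn
    have h1 : MemLp (fun z => L (fderiv ℝ (g : E → ℝ) z)) 2 (μ.restrict (closure S)) :=
      MemLp.of_bound (hcont g).aestronglyMeasurable C
        ((ae_restrict_mem isClosed_closure.measurableSet).mono fun z hz => hC z hz)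
    exact h1.mono_measure (Measure.restrict_mono subset_closure le_rfl)
  let D : V →ₗ[ℝ] Lp F 2 ν :=
    { toFun := fun g => (hm g).toLp _
      map_add' := by
        intro a b
        rw [← MemLp.toLp_add]
        refine MemLp.toLp_congr _ _ (Eventually.of_forall fun z => ?_)
        show L (fderiv ℝ ((a : E → ℝ) + (b : E → ℝ)) z) = _
        rw [fderiv_add (((hV a).differentiable one_ne_zero) z)
          (((hV b).differentiable one_ne_zero) z), map_add]
        rfl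
      map_smul' := by
        intro c a
        rw [← MemLp.toLp_const_smul]
        refine MemLp.toLp_congr _ _ (Eventually.of_forall fun z => ?_)
        show L (fderiv ℝ (c • (a : E → ℝ)) z) = _
        rw [fderiv_const_smul (((hV a).differentiable one_ne_zero) z), map_smul]
        rfl }
  have hDc : ∀ g : V, (D g : E → F) =ᵐ[ν] fun z => L (fderiv ℝ (g : E → ℝ) z) := fun g =>
    (hm g).coeFn_toLp
  let f' : ℕ → V := fun k => ⟨f k, hf k⟩
  have hint : ∀ k, Integrable (fun z => ‖fderiv ℝ (f k) z‖ ^ 2) ν := by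
    intro k
    have h1 : Continuous (fun z => ‖fderiv ℝ (f k) z‖ ^ 2) :=
      (((hf k).continuous_fderiv one_ne_zero).norm).pow 2
    have h2 : IntegrableOn (fun z => ‖fderiv ℝ (f k) z‖ ^ 2) (closure S) μ :=
      h1.continuousOn.integrableOn_compact hcpt
    exact h2.mono_set subset_closure
  have hDK : ∀ k, ‖D (f' k)‖ ≤ Real.sqrt (‖(L : (E →L[ℝ] ℝ) →L[ℝ] F)‖ ^ 2 * K) := by
    intro k
    refine Real.le_sqrt_of_sq_le ?_
    have h1 : ‖D (f' k)‖ ^ 2 = ∫ z, ‖L (fderiv ℝ (f k) z)‖ ^ 2 ∂ν := by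
      rw [← real_inner_self_eq_norm_sq, L2.inner_def]
      refine integral_congr_ae ?_
      filter_upwards [hDc (f' k)] with z hz
      rw [real_inner_self_eq_norm_sq, hz]
    rw [h1]
    calc ∫ z, ‖L (fderiv ℝ (f k) z)‖ ^ 2 ∂ν
        ≤ ∫ z, ‖(L : (E →L[ℝ] ℝ) →L[ℝ] F)‖ ^ 2 * ‖fderiv ℝ (f k) z‖ ^ 2 ∂ν := by
          refine integral_mono_of_nonneg (Eventually.of_forall fun z => by positivity)
            ((hint k).const_mul _) (Eventually.of_forall fun z => ?_)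
          show ‖L (fderiv ℝ (f k) z)‖ ^ 2 ≤ ‖(L : (E →L[ℝ] ℝ) →L[ℝ] F)‖ ^ 2 *
            ‖fderiv ℝ (f k) z‖ ^ 2
          rw [← mul_pow]
          exact pow_le_pow_left₀ (norm_nonneg _)
            ((L : (E →L[ℝ] ℝ) →L[ℝ] F).le_opNorm _) 2
      _ = ‖(L : (E →L[ℝ] ℝ) →L[ℝ] F)‖ ^ 2 * ∫ z, ‖fderiv ℝ (f k) z‖ ^ 2 ∂ν := by
          rw [integral_const_mul]
      _ ≤ _ := mul_le_mul_of_nonneg_left (hK k) (by positivity)
  obtain ⟨g, G₀, hgT, hG₀⟩ := mazur D f' _ hDK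
  refine ⟨fun k => (g k : E → ℝ), fun z => L.symm ((G₀ : E → F) z), fun k => hV (g k), ?_, ?_, ?_,
    ?_⟩
  · intro z hz
    rw [Metric.tendsto_atTop]
    intro ε hε
    obtain ⟨N, hN⟩ := (Metric.tendsto_atTop.1 (hlim z hz)) ε hε
    refine ⟨N, fun k hk => ?_⟩
    let ev : V →ₗ[ℝ] ℝ :=
      { toFun := fun g => (g : E → ℝ) z
        map_add' := fun a b => rfl
        map_smul' := fun c a => rfl }
    have h1 : convexHull ℝ (f' '' Ici k) ⊆ ev ⁻¹' ball (u z) ε := by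
      refine convexHull_min ?_ ((convex_ball (u z) ε).linear_preimage ev)
      rintro _ ⟨j, hj, rfl⟩
      exact hN j (hk.trans hj)
    exact h1 (hgT k)
  · exact L.symm.continuous.comp_stronglyMeasurable (Lp.stronglyMeasurable G₀)
  · have h1 : Integrable (G₀ : E → F) ν := (Lp.memLp G₀).integrable one_le_two
    exact (L.symm : F →L[ℝ] (E →L[ℝ] ℝ)).integrable_comp h1
  · have h1 : Tendsto (fun k => eLpNorm ((D (g k) : E → F) - (G₀ : E → F)) 2 ν) atTop (𝓝 0) :=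
      (Lp.tendsto_Lp_iff_tendsto_eLpNorm' _ _).1 hG₀
    set c : ℝ≥0∞ := ‖(L.symm : F →L[ℝ] (E →L[ℝ] ℝ))‖ₑ * ν univ ^ (1 / (1 : ℝ≥0∞).toReal -
      1 / (2 : ℝ≥0∞).toReal) with hc
    have hct : c ≠ ∞ := by
      refine ENNReal.mul_ne_top enorm_ne_top ?_
      refine ENNReal.rpow_ne_top_of_nonneg ?_ (measure_ne_top _ _)
      norm_num
    have h2 : Tendsto (fun k => c * eLpNorm ((D (g k) : E → F) - (G₀ : E → F)) 2 ν) atTop
        (𝓝 0) := by
      have := ENNReal.Tendsto.const_mul h1 (Or.inr hct)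
      simpa using this
    refine tendsto_of_tendsto_of_tendsto_of_le_of_le tendsto_const_nhds h2
      (fun k => bot_le) fun k => ?_
    have h3 : eLpNorm ((D (g k) : E → F) - (G₀ : E → F)) 1 ν ≤
        eLpNorm ((D (g k) : E → F) - (G₀ : E → F)) 2 ν * ν univ ^ (1 / (1 : ℝ≥0∞).toReal -
          1 / (2 : ℝ≥0∞).toReal) :=
      eLpNorm_le_eLpNorm_mul_rpow_measure_univ one_le_two
        ((Lp.aestronglyMeasurable _).sub (Lp.aestronglyMeasurable _))
    have h4 : ∫⁻ z, ‖fderiv ℝ (g k : E → ℝ) z - L.symm ((G₀ : E → F) z)‖ₑ ∂ν ≤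
        ‖(L.symm : F →L[ℝ] (E →L[ℝ] ℝ))‖ₑ *
          eLpNorm ((D (g k) : E → F) - (G₀ : E → F)) 1 ν := by
      rw [eLpNorm_one_eq_lintegral_enorm, ← lintegral_const_mul' _ _ enorm_ne_top]
      refine lintegral_mono_ae ?_
      filter_upwards [hDc (g k)] with z hz
      have h5 : fderiv ℝ (g k : E → ℝ) z - L.symm ((G₀ : E → F) z) =
          (L.symm : F →L[ℝ] (E →L[ℝ] ℝ)) ((D (g k) : E → F) z - (G₀ : E → F) z) := by
        rw [hz, map_sub]
        simp
      rw [h5]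
      exact (L.symm : F →L[ℝ] (E →L[ℝ] ℝ)).le_opENorm _
    calc _ ≤ _ := h4
      _ ≤ ‖(L.symm : F →L[ℝ] (E →L[ℝ] ℝ))‖ₑ *
          (eLpNorm ((D (g k) : E → F) - (G₀ : E → F)) 2 ν * ν univ ^ (1 / (1 : ℝ≥0∞).toReal -
          1 / (2 : ℝ≥0∞).toReal)) := mul_le_mul_right h3 _
      _ = _ := by rw [hc]; ring

end Gen

end Vale.Agent.P284.H5.TAN
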