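import Vale.Agent.P284.H10.TAN.R1
import Vale.Agent.P284.H730.TAN.R3
import Vale.Agent.P284.H287.TAN.R4
import Vale.Agent.P284.H35.TAN.Core
import Vale.Agent.P284.H35.TAN.Mean
import Vale.Agent.P284.H5.TAN.R6
import Vale.Agent.P284.H5.TAN.R2

/-!
# P284, theorem TAN (helper5): the local statement
-/

open scoped Topology ENNReal
open Filter Set Metric MeasureTheory

set_option linter.unusedSectionVars false

noncomputable section

namespace Vale.Agent.P284.H5.TAN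

section Gen

variable {E : Type*} [NormedAddCommGroup E] [NormedSpace ℝ E] [FiniteDimensional ℝ E]
  [MeasurableSpace E] [BorelSpace E]

/-- a null set is avoided by almost every point of almost every segment -/
theorem ae_segment (μ : Measure E) [μ.IsAddHaarMeasure] {N : Set E} (hNm : MeasurableSet N)
    (hN : μ N = 0) : ∀ᵐ x ∂μ, ∀ᵐ h ∂μ, ∀ᵐ s ∂(volume.restrict (Ioc (0 : ℝ) 1)), x + s • h ∉ N := by
  have hfd : ProperSpace E := FiniteDimensional.proper_real E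
  set ν : Measure (E × ℝ) := μ.prod (volume.restrict (Ioc (0 : ℝ) 1)) with hν
  have hm : MeasurableSet {q : (E × ℝ) × E | q.2 + q.1.2 • q.1.1 ∉ N} := by
    have hc : Continuous fun q : (E × ℝ) × E => q.2 + q.1.2 • q.1.1 := by fun_prop
    exact (hc.measurable hNm).compl
  have h1 : ∀ᵐ q ∂ν, ∀ᵐ x ∂μ, x + q.2 • q.1 ∉ N := by
    refine Eventually.of_forall fun q => ?_
    have h2 : ∀ᵐ x ∂μ, x ∉ N := measure_eq_zero_iff_ae_notMem.1 hN
    exact (measurePreserving_add_right μ (q.2 • q.1)).quasiMeasurePreserving.ae h2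
  have h3 : ∀ᵐ x ∂μ, ∀ᵐ q ∂ν, x + q.2 • q.1 ∉ N :=
    (Measure.ae_ae_comm (μ := ν) (ν := μ) (p := fun q x => x + q.2 • q.1 ∉ N) hm).1 h1
  filter_upwards [h3] with x hx
  exact Measure.ae_ae_of_ae_prod hx

/-- zero gradient ⇒ differences vanish -/
theorem diff_zero (μ : Measure E) [μ.IsAddHaarMeasure] {S : Set E} (hSo : IsOpen S)
    (hS : Convex ℝ S) {u : E → ℝ} {G : E → E →L[ℝ] ℝ} (hGm : StronglyMeasurable G)
    (hG0 : ∀ᵐ x ∂μ, x ∈ S → G x = 0)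
    (hid : ∀ᵐ x ∂μ, x ∈ S → ∀ᵐ h ∂μ, x + h ∈ S →
      u (x + h) - u x = ∫ s in (0 : ℝ)..1, G (x + s • h) h) :
    ∀ᵐ x ∂μ, x ∈ S → ∀ᵐ h ∂μ, x + h ∈ S → u (x + h) = u x := by
  set N : Set E := {x | x ∈ S ∧ G x ≠ 0} with hN
  have hNm : MeasurableSet N := by
    refine hSo.measurableSet.inter ?_
    exact (hGm.measurable (measurableSet_singleton 0)).compl
  have hN0 : μ N = 0 := by
    rw [measure_eq_zero_iff_ae_notMem]
    filter_upwards [hG0] with x hx hxN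
    exact hxN.2 (hx hxN.1)
  filter_upwards [hid, ae_segment μ hNm hN0] with x hx1 hx2 hxS
  filter_upwards [hx1 hxS, hx2] with h hh1 hh2 hhS
  have h3 : ∫ s in (0 : ℝ)..1, G (x + s • h) h = 0 := by
    rw [intervalIntegral.integral_of_le zero_le_one]
    refine integral_eq_zero_of_ae ?_
    filter_upwards [hh2, ae_restrict_mem measurableSet_Ioc] with s hs1 hs2
    have h4 : x + s • h ∈ S := by
      have h5 := hS.add_smul_mem hxS hhS ⟨hs2.1.le, hs2.2⟩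
      exact h5
    have h6 : G (x + s • h) = 0 := by
      by_contra h7
      exact hs1 ⟨h4, h7⟩
    rw [h6]
    rfl
  have h8 := hh1 hhS
  rw [h3] at h8
  linarith

end Gen

/-- the literal of 409's R2 -/
def R2 : Prop :=
  ∀ (n : ℕ) (u : (Fin n → ℂ) → ℝ) (S : Set (Fin n → ℂ)), Bornology.IsBounded S →
    ∀ (f : ℕ → (Fin n → ℂ) → ℝ) (K : ℝ), (∀ k, ContDiff ℝ 1 (f k)) →
    (∀ z ∈ S, Tendsto (fun k => f k z) atTop (𝓝 (u z))) →
    (∀ k, ∫ z in S, ‖fderiv ℝ (f k) z‖ ^ 2 ≤ K) →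
    ∃ (g : ℕ → (Fin n → ℂ) → ℝ) (G : (Fin n → ℂ) → (Fin n → ℂ) →L[ℝ] ℝ),
      (∀ k, ContDiff ℝ 1 (g k)) ∧ (∀ z ∈ S, Tendsto (fun k => g k z) atTop (𝓝 (u z))) ∧
      StronglyMeasurable G ∧ IntegrableOn G S ∧
      Tendsto (fun k => ∫⁻ z in S, ‖fderiv ℝ (g k) z - G z‖ₑ) atTop (𝓝 0)

/-- **TanLoc** (literal of 446's #25592) -/
def TanLoc : Prop := ∀ (n : ℕ) (v : (Fin n → ℂ) → ℝ), (∃ B : ℝ, ∀ z, |v z| ≤ B) →
  (∀ z ∈ ball (0 : Fin n → ℂ) 1, UpperSemicontinuousAt v z) →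
  (∀ (c b : Fin n → ℂ) (ρ : ℝ), 0 < ρ →
    (∀ ζ ∈ closedBall (0 : ℂ) ρ, c + ζ • b ∈ ball (0 : Fin n → ℂ) 1) →
    v c ≤ Real.circleAverage (fun ζ : ℂ => v (c + ζ • b)) 0 ρ) →
  (∀ᵐ x : Fin n → ℂ, x ∈ ball (0 : Fin n → ℂ) 1 → ∃ S : Set (Fin n → ℂ),
    Submodule.span ℂ S = ⊤ ∧ ∀ a ∈ S, ∃ f : ℂ → (Fin n → ℂ), HasDerivAt f a 0 ∧ f 0 = x ∧
      ∀ᶠ t in 𝓝 (0 : ℂ), v (f t) = v x) →
  ∃ r > 0, ∀ z ∈ ball (0 : Fin n → ℂ) r, v z = v 0

theorem tanLoc_of (h2 : R2) : TanLoc := by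
  intro n v hb husc hsub hcur
  have hfd : FiniteDimensional ℝ (Fin n → ℂ) := inferInstance
  have hsub1 : ∀ c b : Fin n → ℂ, ‖c‖ + ‖b‖ < 1 →
      v c ≤ Real.circleAverage (fun ζ => v (c + ζ • b)) 0 1 := by
    intro c b hcb
    refine hsub c b 1 one_pos fun ζ hζ => ?_
    rw [mem_ball_zero_iff]
    refine (norm_add_le _ _).trans_lt ?_
    rw [mem_closedBall_zero_iff] at hζ
    rw [norm_smul]
    have : ‖ζ‖ * ‖b‖ ≤ 1 * ‖b‖ := mul_le_mul_of_nonneg_right hζ (norm_nonneg _)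
    linarith
  obtain ⟨f, K, hf, hlim, hK⟩ := H10.TAN.r1 n v
    (by obtain ⟨B, hB⟩ := hb; exact ⟨B, fun z _ => hB z⟩) husc hsub1 (1 / 2) (by norm_num)
    (by norm_num)
  obtain ⟨g, G, hg, hglim, hGm, hGi, hGL⟩ := h2 n v (ball 0 (1 / 2)) isBounded_ball f K hf hlim hK
  have hB1 : ball (0 : Fin n → ℂ) (1 / 2) ⊆ ball 0 1 := ball_subset_ball (by norm_num)
  have h3 := H730.TAN.r3 (μ := volume) (convex_ball (0 : Fin n → ℂ) (1 / 2)) measurableSet_ball hg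
    hglim hGm hGL
  have hid : ∀ᵐ x : Fin n → ℂ, x ∈ ball (0 : Fin n → ℂ) (1 / 2) → ∀ᵐ h : Fin n → ℂ,
      x + h ∈ ball (0 : Fin n → ℂ) (1 / 2) →
      v (x + h) - v x = ∫ s in (0 : ℝ)..1, G (x + s • h) h := by
    filter_upwards [h3] with x hx hxS
    filter_upwards [hx] with h hh hhS
    exact (hh hxS hhS).2
  have h4 := H287.TAN.r4 (μ := volume) isOpen_ball hGm hGi hid
  have hG0 : ∀ᵐ x : Fin n → ℂ, x ∈ ball (0 : Fin n → ℂ) (1 / 2) → G x = 0 := by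
    filter_upwards [h4, hcur] with x hx1 hx2 hxS
    obtain ⟨S, hS, hSf⟩ := hx2 (hB1 hxS)
    have hδ : 0 < 1 - ‖x‖ := by
      have := mem_ball_zero_iff.1 (hB1 hxS)
      linarith
    have hsubB : ball x (1 - ‖x‖) ⊆ ball (0 : Fin n → ℂ) 1 := by
      refine ball_subset_ball' ?_
      rw [dist_zero_right]
      linarith
    refine H35.TAN.core v x (G x) hδ ?_ ?_ (hx1 hxS) S hS hSf
    · intro h r hr hhr
      exact H35.TAN.hsub_core isOpen_ball hb husc hsub hsubB h r hr hhr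
    · exact H35.TAN.integrable_ball isOpen_ball hb husc hsubB
  have h5 := diff_zero volume isOpen_ball (convex_ball (0 : Fin n → ℂ) (1 / 2)) hGm hG0 hid
  obtain ⟨c, hc⟩ := r6 volume v (0 : Fin n → ℂ) (1 / 2) h5 (fun x hx => husc x (hB1 hx)) (by
    intro y hy
    have hδ : 0 < 1 - ‖y‖ := by
      have := mem_ball_zero_iff.1 (hB1 hy)
      linarith
    refine ⟨1 - ‖y‖, hδ, fun r hr => ?_⟩
    refine H35.TAN.ball_mean isOpen_ball hb husc hsub hr.1 ?_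
    refine ball_subset_ball' ?_
    rw [dist_zero_right]
    linarith [hr.2])
  refine ⟨1 / 2, by norm_num, fun z hz => ?_⟩
  rw [hc z hz, hc 0 (mem_ball_self (by norm_num))]

theorem tanLoc : TanLoc :=
  tanLoc_of fun _ u S hS f K hf hl hK => r2 volume u S hS f K hf hl hK

end Vale.Agent.P284.H5.TAN
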