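import Vale.Agent.P284.H5.TAN.Asm
import Vale.Agent.P284.H446.TAN.R7

/-!
# P284, theorem TAN (helper5): closing
-/

noncomputable section

namespace Vale.Agent.P284.H5.TAN

theorem tanConcl : H446.TAN.TanConcl := H446.TAN.tanConcl_of tanLoc

end Vale.Agent.P284.H5.TAN
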